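import Vale.Agent.P370Z.MBLOW.Kop

/-!
# P370: the many-body lower bound
-/

namespace Vale.Agent.P370Z

open MeasureTheory Finset Function

noncomputable section

namespace MBLOW

/-- A `C¹` function with compact support, as an element of the space. -/
def toCc {X : Type} [NormedAddCommGroup X] [NormedSpace ℝ X] (f : X → ℝ) (h : C1c f) : CcS X :=
  ⟨f, h.1.continuous, h.2⟩

section Slice

variable {n : ℕ}

theorem insertNth_eq (i : Fin (n + 1)) (y : Fin n → P3) (t0 : P3) :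
    (fun t : P3 => (i.insertNth t y : Cf (n + 1))) = update (i.insertNth t0 y : Cf (n + 1)) i := by
  funext t
  rw [Fin.update_insertNth]

theorem c1c_slice {Ψ : Cf (n + 1) → ℝ} (h : C1c Ψ) (i : Fin (n + 1)) (y : Fin n → P3) :
    C1c fun t => Ψ (i.insertNth t y) := by
  have e : (fun t => Ψ (i.insertNth t y)) = Ψ ∘ update (i.insertNth 0 y : Cf (n + 1)) i := by
    rw [← insertNth_eq]
    rfl
  rw [e]
  exact ⟨h.1.comp (contDiff_update 1 _ i),
    h.2.comp_isClosedEmbedding (isClosedEmbedding_update _ i)⟩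

theorem pd_slice {Ψ : Cf (n + 1) → ℝ} (h : C1c Ψ) (i : Fin (n + 1)) (y : Fin n → P3) (k : Fin 3)
    (t : P3) : pd k (fun t => Ψ (i.insertNth t y)) t = pdN i k Ψ (i.insertNth t y) := by
  have e : (fun t => Ψ (i.insertNth t y)) = Ψ ∘ update (i.insertNth 0 y : Cf (n + 1)) i := by
    rw [← insertNth_eq]
    rfl
  have h1 := ((h.1.differentiable one_ne_zero) (update (i.insertNth 0 y : Cf (n + 1)) i t)
    ).hasFDerivAt.comp t (hasFDerivAt_update (𝕜 := ℝ) (i.insertNth 0 y : Cf (n + 1)) (i := i) t)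
  rw [pd, pdN, e, h1.fderiv, Fin.update_insertNth, ContinuousLinearMap.comp_apply]
  congr 1
  funext j
  by_cases hj : j = i
  · subst hj
    simp
  · simp [Pi.single_eq_of_ne hj]

end Slice

theorem int_lin {Y : Type} [MeasureSpace Y] {a0 s1 s2 s3 s4 v : Y → ℝ} (i0 : Integrable a0)
    (i1 : Integrable s1) (i2 : Integrable s2) (i3 : Integrable s3) (i4 : Integrable s4)
    (iv : Integrable v) (α T γ : ℝ)
    (h : ∀ y, α * a0 y + (-(T * s1 y) + γ * (a0 y - s2 y) + 2 * s3 y) ≤ 1 / 2 * s4 y + v y) :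
    α * (∫ y, a0 y) + (-(T * ∫ y, s1 y) + γ * ((∫ y, a0 y) - ∫ y, s2 y) + 2 * ∫ y, s3 y) ≤
      1 / 2 * (∫ y, s4 y) + ∫ y, v y := by
  have t0 : Integrable fun y => (α + γ) * a0 y := i0.const_mul _
  have t1 : Integrable fun y => 2 * s3 y := i3.const_mul _
  have t2 : Integrable fun y => T * s1 y := i1.const_mul _
  have t3 : Integrable fun y => γ * s2 y := i2.const_mul _
  have t4 : Integrable fun y => 1 / 2 * s4 y := i4.const_mul _
  have t5 : Integrable fun y => T * s1 y + γ * s2 y := t2.add t3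
  have t6 : Integrable fun y => 1 / 2 * s4 y + v y := t4.add iv
  have h1 : ∫ y, ((α + γ) * a0 y + 2 * s3 y) ≤
      ∫ y, ((T * s1 y + γ * s2 y) + (1 / 2 * s4 y + v y)) :=
    integral_mono (t0.add t1) (t5.add t6) fun y => by
      have := h y
      simp only
      linarith
  rw [integral_add t0 t1, integral_add t5 t6, integral_add t2 t3, integral_add t4 iv] at h1
  simp only [integral_const_mul] at h1
  linarith

variable {C D Ec B : Type} [Fintype C] [DecidableEq C] [Fintype D] [DecidableEq D] [Fintype Ec]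

/-- The one-body lower bound, for the particle number `i`. -/
theorem one_body {N : ℕ} {V : P3 → ℝ} (hV : PotOK V) {f : C ⊕ D → P3 → ℝ} {r : C → P3 → ℝ}
    {E Tc γ δ τ : ℝ} (ob : OB V f r E Tc γ δ τ) {Ψ : Cf N → ℝ} (h : C1c Ψ) (i : Fin N) :
    (E - δ) * BB N (toCc Ψ h) (toCc Ψ h) +
      (-(Tc * ∑ c, BB N (toCc Ψ h) (Kop i (toCc _ (ob.f_c1c (.inl c))) (toCc _ (ob.f_c1c (.inl c)))
          (toCc Ψ h))) +
        γ * (BB N (toCc Ψ h) (toCc Ψ h) - ∑ μ, BB N (toCc Ψ h)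
          (Kop i (toCc _ (ob.f_c1c μ)) (toCc _ (ob.f_c1c μ)) (toCc Ψ h))) +
        2 * ∑ c, BB N (toCc Ψ h) (Kop i (toCc _ (ob.f_c1c (.inl c))) (toCc _ (ob.r_c1c c))
          (toCc Ψ h))) ≤
      (1 / 2) * (∑ k, ∫ x, pdN i k Ψ x ^ 2) + ∫ x, V (x i) * Ψ x ^ 2 := by
  obtain ⟨n, rfl⟩ : ∃ n, N = n + 1 := ⟨N - 1, by have := i.pos; omega⟩
  set F := toCc Ψ h with hF
  let a0 : (Fin n → P3) → ℝ := fun y => ∫ t, F.1 (i.insertNth t y) * F.1 (i.insertNth t y)
  let a : CcS P3 → CcS P3 → (Fin n → P3) → ℝ := fun p q y =>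
    ∫ t, F.1 (i.insertNth t y) * (Kop i p q F).1 (i.insertNth t y)
  let d : Fin 3 → (Fin n → P3) → ℝ := fun k y => ∫ t, pdN i k Ψ (i.insertNth t y) ^ 2
  let v : (Fin n → P3) → ℝ := fun y =>
    ∫ t, V ((i.insertNth t y : Cf (n + 1)) i) * Ψ (i.insertNth t y) ^ 2
  have hsq : ∀ {G : Cf (n + 1) → ℝ}, HasCompactSupport G → HasCompactSupport fun x => G x ^ 2 :=
    fun hG => by simp only [sq]; exact hG.mul_right
  have id' : ∀ k, Integrable fun x => pdN i k Ψ x ^ 2 := fun k =>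
    ((MB.continuous_pdN h i k).pow 2).integrable_of_hasCompactSupport
      (hsq (MB.hasCompactSupport_pdN h i k))
  have iv' : Integrable fun x : Cf (n + 1) => V (x i) * Ψ x ^ 2 :=
    MB.integrable_pot_cc hV i (h.1.continuous.pow 2) (hsq h.2)
  have i0 : Integrable a0 := integrable_sl i (integrable_cc F F)
  have ia : ∀ p q, Integrable (a p q) := fun p q => integrable_sl i (integrable_cc F _)
  have id : ∀ k, Integrable (d k) := fun k => integrable_sl i (id' k)
  have iv : Integrable v := integrable_sl i iv'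
  have e0 : BB (n + 1) F F = ∫ y, a0 y := by
    rw [BB_apply]; exact (integral_sl i (integrable_cc F F)).symm
  have ea : ∀ p q, BB (n + 1) F (Kop i p q F) = ∫ y, a p q y := fun p q => by
    rw [BB_apply]; exact (integral_sl i (integrable_cc F _)).symm
  have ed : ∀ k, ∫ x, pdN i k Ψ x ^ 2 = ∫ y, d k y := fun k => (integral_sl i (id' k)).symm
  have ev : ∫ x : Cf (n + 1), V (x i) * Ψ x ^ 2 = ∫ y, v y := (integral_sl i iv').symm
  simp only [e0, ea, ed, ev]
  have s1 := integrable_finsetSum (univ : Finset C) fun c _ =>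
    ia (toCc _ (ob.f_c1c (.inl c))) (toCc _ (ob.f_c1c (.inl c)))
  have s2 := integrable_finsetSum (univ : Finset (C ⊕ D)) fun μ _ =>
    ia (toCc _ (ob.f_c1c μ)) (toCc _ (ob.f_c1c μ))
  have s3 := integrable_finsetSum (univ : Finset C) fun c _ =>
    ia (toCc _ (ob.f_c1c (.inl c))) (toCc _ (ob.r_c1c c))
  have s4 := integrable_finsetSum (univ : Finset (Fin 3)) fun k _ => id k
  rw [← integral_finsetSum _ fun _ _ => ia _ _, ← integral_finsetSum _ fun _ _ => ia _ _,
    ← integral_finsetSum _ fun _ _ => ia _ _, ← integral_finsetSum _ fun k _ => id k]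
  refine int_lin i0 s1 s2 s3 s4 iv _ _ _ fun y => ?_
  have key := ob.low _ (c1c_slice h i y)
  have k1 : qb V (fun t => Ψ (i.insertNth t y)) (fun t => Ψ (i.insertNth t y)) =
      1 / 2 * ∑ k, d k y + v y := by
    simp only [qb, kin1, pd_slice h, d, v, Fin.insertNth_apply_same, sq]
  have k2 : ∀ p q, a p q y =
      ip p.1 (fun t => Ψ (i.insertNth t y)) * ip q.1 (fun t => Ψ (i.insertNth t y)) :=
    fun p q => sl_Kop i p q F F y
  have k3 : ip (fun t => Ψ (i.insertNth t y)) (fun t => Ψ (i.insertNth t y)) = a0 y := rfl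
  rw [k1, k3] at key
  simp only [k2, toCc]
  simp only [sq] at key
  linarith

/-- The contact interaction. -/
def wc {N : ℕ} (A A' : Ec → Set P3) (x : Cf N) : ℝ :=
  ∑ e, ∑ i, ∑ j ∈ univ.erase i, (A e).indicator 1 (x i) * (A' e).indicator 1 (x j)

theorem ind_nonneg (A : Set P3) (y : P3) : 0 ≤ A.indicator (1 : P3 → ℝ) y :=
  Set.indicator_nonneg (fun _ _ => zero_le_one) _

theorem ind_le (A : Set P3) (y : P3) : A.indicator (1 : P3 → ℝ) y ≤ 1 :=
  Set.indicator_le_self' (fun _ _ => zero_le_one) y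

theorem wc_nonneg {N : ℕ} (A A' : Ec → Set P3) (x : Cf N) : 0 ≤ wc A A' x :=
  sum_nonneg fun _ _ => sum_nonneg fun _ _ => sum_nonneg fun _ _ =>
    mul_nonneg (ind_nonneg _ _) (ind_nonneg _ _)

theorem triple_le {N : ℕ} {S : ℝ} (hSN : (N : ℝ) ≤ S) (hSE : (Fintype.card Ec : ℝ) ≤ S) {z : ℝ}
    (hz : 0 ≤ z) : ∑ _e : Ec, ∑ i : Fin N, ∑ _j ∈ univ.erase i, z ≤ S ^ 3 * z := by
  have h0 : (0 : ℝ) ≤ S := (Nat.cast_nonneg _).trans hSN
  have h1 : ∀ i : Fin N, ∑ _j ∈ univ.erase i, z ≤ S * z := fun i => by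
    rw [sum_const, nsmul_eq_mul]
    refine mul_le_mul_of_nonneg_right (le_trans ?_ hSN) hz
    have : (univ.erase i).card ≤ N := card_erase_le.trans (by simp)
    exact_mod_cast this
  have h2 : ∑ i : Fin N, ∑ _j ∈ univ.erase i, z ≤ S * (S * z) := by
    refine (sum_le_sum fun i _ => h1 i).trans ?_
    rw [sum_const, nsmul_eq_mul, card_univ, Fintype.card_fin]
    exact mul_le_mul_of_nonneg_right hSN (by positivity)
  refine (sum_le_sum fun _ _ => h2).trans ?_
  rw [sum_const, nsmul_eq_mul, card_univ]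
  calc (Fintype.card Ec : ℝ) * (S * (S * z)) ≤ S * (S * (S * z)) :=
        mul_le_mul_of_nonneg_right hSE (by positivity)
    _ = _ := by ring

theorem abs_wc_le {N : ℕ} {S : ℝ} (hSN : (N : ℝ) ≤ S) (hSE : (Fintype.card Ec : ℝ) ≤ S)
    (A A' : Ec → Set P3) (x : Cf N) : |wc A A' x| ≤ S ^ 3 := by
  rw [abs_of_nonneg (wc_nonneg A A' x)]
  have h := triple_le (Ec := Ec) hSN hSE zero_le_one
  rw [mul_one] at h
  refine le_trans (sum_le_sum fun e _ => sum_le_sum fun i _ => sum_le_sum fun j _ => ?_) h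
  exact mul_le_one₀ (ind_le _ _) (ind_nonneg _ _) (ind_le _ _)

theorem measurable_wc {N : ℕ} {A A' : Ec → Set P3} (hA : ∀ e, MeasurableSet (A e))
    (hA' : ∀ e, MeasurableSet (A' e)) : Measurable (wc (N := N) A A') :=
  Finset.measurable_sum _ fun e _ => Finset.measurable_sum _ fun i _ =>
    Finset.measurable_sum _ fun j _ =>
      ((measurable_one.indicator (hA e)).comp (measurable_pi_apply i)).mul
        ((measurable_one.indicator (hA' e)).comp (measurable_pi_apply j))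

theorem wc_le_rep {N : ℕ} {A A' : Ec → Set P3} {κ : ℝ}
    (lo : ∀ x y, κ * contact A A' x y ≤ 1 / nrm (x - y)) (x : Cf N) : κ * wc A A' x ≤ rep x := by
  have h1 : wc A A' x = ∑ i, ∑ j ∈ Ioi i, contact A A' (x i) (x j) := by
    unfold wc contact
    rw [sum_comm]
    simp only [sum_add_distrib]
    rw [← sum_add_distrib, sum_congr rfl fun i _ => sum_comm,
      ← MB.sum_Ioi_symm fun i j => ∑ e, (A e).indicator 1 (x i) * (A' e).indicator 1 (x j)]
    refine sum_congr rfl fun i _ => ?_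
    rw [← sum_add_distrib]
    simp only [mul_comm]
  rw [h1, rep, mul_sum]
  refine sum_le_sum fun i _ => ?_
  rw [mul_sum]
  exact sum_le_sum fun j _ => lo _ _

theorem good_bound {N nb : ℕ} {f : C ⊕ D → P3 → ℝ} (hf : ∀ μ, C1c (f μ))
    (hon : ∀ μ ν, ip (f μ) (f ν) = idm μ ν) {blk : D → B} {U W : Ec → D → ℝ} {A A' : Ec → Set P3}
    {ϱ : P3 → P3 → ℝ} {κlo κhi ε η : ℝ} (ct : CT f blk U W A A' ϱ κlo κhi ε η) {b : ℝ}
    (mf : MFLow N C U W nb b) (hU : ∀ e d, |U e d| ≤ 1) (hW : ∀ e d, |W e d| ≤ 1) {S : ℝ}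
    (hSN : (N : ℝ) ≤ S) (hSL : (Fintype.card C + Fintype.card D : ℝ) ≤ S)
    (hSE : (Fintype.card Ec : ℝ) ≤ S) (hε : 0 ≤ ε) (hε1 : ε ≤ 1) (c : (Fin N → C ⊕ D) → ℝ)
    (hc : ∀ l, c l ≠ 0 → (univ.filter fun i => (l i).isRight = true).card = nb) :
    (b - 3 * S ^ 5 * ε) * ∫ x, MB.wv (fun _ => f) c x ^ 2 ≤
      ∫ x, wc A A' x * MB.wv (fun _ => f) c x ^ 2 := by
  have hΨ : C1c (MB.wv (fun _ : Fin N => f) c) := MB.c1c_wv (fun _ μ => hf μ) c
  have hI : Integrable fun x => MB.wv (fun _ : Fin N => f) c x ^ 2 := by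
    refine (hΨ.1.continuous.pow 2).integrable_of_hasCompactSupport ?_
    simp only [sq]
    exact hΨ.2.mul_right
  have h1 : ∫ x, wc A A' x * MB.wv (fun _ => f) c x ^ 2 = ∑ e, ∑ i, ∑ j ∈ univ.erase i,
      ∫ x : Cf N, (A e).indicator 1 (x i) * (A' e).indicator 1 (x j) *
        MB.wv (fun _ => f) c x ^ 2 := by
    have hi := fun e (i j : Fin N) => MB.integrable_contact (i := i) (j := j) (ct.measA e)
      (ct.measA' e) hI
    simp only [wc, sum_mul]
    rw [integral_finsetSum _ fun e _ => integrable_finsetSum _ fun i _ =>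
      integrable_finsetSum _ fun j _ => hi e i j]
    refine sum_congr rfl fun e _ => ?_
    rw [integral_finsetSum _ fun i _ => integrable_finsetSum _ fun j _ => hi e i j]
    exact sum_congr rfl fun i _ => integral_finsetSum _ fun j _ => hi e i j
  have hn := MB.nsqT_nonneg c
  have h2 : HF (fun e => ext0 C (U e)) (fun e => ext0 C (W e)) c -
      ∑ _e : Ec, ∑ i : Fin N, ∑ _j ∈ univ.erase i, 3 * (Fintype.card (C ⊕ D) : ℝ) ^ 2 * ε * nsqT c ≤
      ∫ x, wc A A' x * MB.wv (fun _ => f) c x ^ 2 := by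
    rw [h1, HF]
    simp only [← sum_sub_distrib]
    refine sum_le_sum fun e _ => sum_le_sum fun i _ => sum_le_sum fun j hj => ?_
    have hij : i ≠ j := (ne_of_mem_erase hj).symm
    have h5 := MB.abs_tens_two_sub_le hij (fun μ ν => ∫ y in A e, f μ y * f ν y)
      (fun μ ν => ∫ y in A' e, f μ y * f ν y) (outer (ext0 C (U e))) (outer (ext0 C (W e))) hε1
      (ct.contA e) (ct.contA' e) (MB.abs_outer_le (hU e)) (MB.abs_outer_le (hW e)) c
    rw [MB.int_contact hf hon hij (ct.measA e) (ct.measA' e) c]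
    linarith [(abs_le.1 h5).1]
  have h3 := triple_le (N := N) hSN hSE
    (z := 3 * (Fintype.card (C ⊕ D) : ℝ) ^ 2 * ε * nsqT c) (by positivity)
  have h4 : (Fintype.card (C ⊕ D) : ℝ) ≤ S := by rw [Fintype.card_sum]; push_cast; exact hSL
  have h0 : (0 : ℝ) ≤ S := (Nat.cast_nonneg _).trans hSN
  have h5 : S ^ 3 * (3 * (Fintype.card (C ⊕ D) : ℝ) ^ 2 * ε * nsqT c) ≤
      S ^ 3 * (3 * S ^ 2 * ε * nsqT c) := by gcongr
  rw [MB.int_norm hf hon]
  have h6 := mf c hc
  linarith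

theorem ops {N nb : ℕ} {V : P3 → ℝ} {f : C ⊕ D → P3 → ℝ} {r : C → P3 → ℝ} {E Tc γ δ τ : ℝ}
    (ob : OB V f r E Tc γ δ τ) {blk : D → B} {U W : Ec → D → ℝ} {A A' : Ec → Set P3}
    {ϱ : P3 → P3 → ℝ} {κlo κhi ε η : ℝ} (ct : CT f blk U W A A' ϱ κlo κhi ε η) {b : ℝ}
    (mf : MFLow N C U W nb b) (hU : ∀ e d, |U e d| ≤ 1) (hW : ∀ e d, |W e d| ≤ 1) {S : ℝ}
    (hSN : (N : ℝ) ≤ S) (hSL : (Fintype.card C + Fintype.card D : ℝ) ≤ S)
    (hSE : (Fintype.card Ec : ℝ) ≤ S) (hε : 0 ≤ ε) (hε1 : ε ≤ 1) :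
    Ops (BB N) (wform (wc A A') (measurable_wc ct.measA ct.measA') (abs_wc_le hSN hSE A A'))
      (fun i μ => Kop i (toCc _ (ob.f_c1c μ)) (toCc _ (ob.f_c1c μ)))
      (fun i c => Kop i (toCc _ (ob.f_c1c (.inl c))) (toCc _ (ob.r_c1c c))) nb (S ^ 3) τ
      (b - 3 * S ^ 5 * ε) where
  Bsymm := BB_symm
  Bpos := BB_pos
  Wsymm := fun F G => by simp only [wform_apply, mul_comm (F.1 _)]
  Wpos := fun F => by
    rw [wform_apply]
    exact integral_nonneg fun x => mul_nonneg (wc_nonneg _ _ _) (mul_self_nonneg _)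
  Wle := fun F => by
    rw [wform_apply, BB_apply, ← integral_const_mul]
    refine integral_mono (integrable_w_mul (measurable_wc ct.measA ct.measA')
      (abs_wc_le hSN hSE A A') F F) ((integrable_cc F F).const_mul _) fun x => ?_
    exact mul_le_mul_of_nonneg_right ((le_abs_self _).trans (abs_wc_le hSN hSE A A' x))
      (mul_self_nonneg _)
  Padj := fun i μ F G => Kop_adj i _ _ F G
  Pmul := fun i μ ν => by
    rw [Kop_mul]
    simp only [toCc, ob.on, idm]
    split_ifs with h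
    · subst h; exact one_smul _ _
    · exact zero_smul _ _
  Pcomm := fun i j μ ν h => Kop_comm h _ _ _ _
  PK := fun i c => by
    rw [Kop_mul]
    simp only [toCc, ob.on, idm, if_true, one_smul]
  KP := fun i c c' => by
    rw [Kop_mul]
    have : ip (r c) (f (.inl c')) = 0 := by
      rw [← ob.r_orth c c']
      simp only [ip, mul_comm]
    simp only [toCc, this, zero_smul]
  KPcomm := fun i j c ν h => Kop_comm h _ _ _ _
  Knorm := fun i c F => Kop_norm i _ _ (by simp only [toCc, ob.on, idm, if_true]) (ob.r_norm c) F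
  good := fun x hx hs => by
    choose κ hκ using fun l => rank_one (fun k => toCc _ (ob.f_c1c (l k)))
      (fun k => by simp only [toCc, ob.on, idm, if_true]) (x l) (hx l)
    classical
    let c : (Fin N → C ⊕ D) → ℝ := fun l => if x l = 0 then 0 else κ l
    have e' : (∑ l, x l).1 = MB.wv (fun _ => f) c := by
      funext y
      rw [AddSubmonoidClass.coe_finsetSum, Finset.sum_apply, MB.wv]
      refine sum_congr rfl fun l _ => ?_
      by_cases h : x l = 0
      · simp [c, h]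
      · simp only [c, if_neg h]
        exact hκ l y
    rw [wform_apply, BB_apply, e']
    simp only [← sq]
    refine good_bound ob.f_c1c ob.on ct mf hU hW hSN hSL hSE hε hε1 c fun l hl => hs l fun h => ?_
    exact hl (if_pos h)

end MBLOW

open MBLOW

variable {B C D Ec : Type} [Fintype B] [DecidableEq B] [Fintype C] [DecidableEq C] [Fintype D]
  [DecidableEq D] [Fintype Ec]

set_option linter.unusedVariables false in
omit [Fintype B] [DecidableEq B] in
theorem mb_low (N nb : ℕ) (hN : N = 2 * Fintype.card C + nb) (V : P3 → ℝ) (hV : PotOK V)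
    (f : C ⊕ D → P3 → ℝ) (r : C → P3 → ℝ) (E Tc γ δ τ : ℝ) (ob : OB V f r E Tc γ δ τ)
    (blk : D → B) (U W : Ec → D → ℝ) (A A' : Ec → Set P3) (ϱ : P3 → P3 → ℝ) (κlo κhi ε η : ℝ)
    (ct : CT f blk U W A A' ϱ κlo κhi ε η) (b : ℝ) (mf : MFLow N C U W nb b)
    (hU : ∀ e d, |U e d| ≤ 1) (hW : ∀ e d, |W e d| ≤ 1)
    (g S : ℝ) (hS1 : 1 ≤ S) (hSN : (N : ℝ) ≤ S) (hSL : (Fintype.card C + Fintype.card D : ℝ) ≤ S)
    (hSE : (Fintype.card Ec : ℝ) ≤ S) (hg : 0 < g) (hκ : 0 ≤ κlo) (hb0 : 0 ≤ b) (hb1 : b ≤ 1)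
    (hγ : 0 < γ) (hγT : 2 * γ ≤ Tc) (hgγ : 2 * g * κlo ≤ γ) (hδ : 0 ≤ δ) (hτ : 0 ≤ τ)
    (hε : 0 ≤ ε) (hε1 : ε ≤ 1) (Ψ : Sp N → Cf N → ℝ) (hΨ : Adm Ψ) :
    (N * E - 2 * Fintype.card C * Tc + g * κlo * b -
      (S * δ + 2 * (S ^ 2 * τ) ^ 2 / Tc + 2 * (g * κlo * S ^ 3) ^ 2 / γ +
        3 * g * κlo * S ^ 5 * ε)) * nsq Ψ ≤ en V g Ψ := by
  have op := ops ob ct mf hU hW hSN hSL hSE hε hε1
  rw [nsq, en, mul_sum]
  refine sum_le_sum fun s _ => ?_
  have h := hΨ.1 s
  have hsq : HasCompactSupport fun x => Ψ s x ^ 2 := by simp only [sq]; exact h.2.mul_right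
  have hZ : (Fintype.card (Fin N) : ℝ) * Fintype.card C ≤ S ^ 2 := by
    rw [Fintype.card_fin, sq]
    have : (0 : ℝ) ≤ Fintype.card D := Nat.cast_nonneg _
    exact mul_le_mul hSN (by linarith) (Nat.cast_nonneg _) (by linarith)
  have h1 := op.lower (by rw [Fintype.card_fin, hN]) (toCc (Ψ s) h) s
    (fun i j hij hs μ => Kop_pauli hij _ _ _ _ fun x => by
      have e1 : s ∘ Equiv.swap i j = s := by
        funext k
        by_cases hki : k = i
        · subst hki; simp [hs]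
        · by_cases hkj : k = j
          · subst hkj; simp [hs]
          · simp [Equiv.swap_apply_of_ne_of_ne hki hkj]
      have e2 := hΨ.2 (Equiv.swap i j) s x
      rw [e1, Equiv.Perm.sign_swap hij] at e2
      simpa [toCc] using e2)
    (G := g * κlo) (b := b) (e := 3 * S ^ 5 * ε) (Z := S ^ 2) hγ hγT (by positivity)
    (by linarith) hb1 (by positivity) rfl (by positivity) hZ
  have h2 := sum_le_sum fun i (_ : i ∈ (univ : Finset (Fin N))) => one_body hV ob h i
  have h3 : BB N (toCc (Ψ s) h) (toCc (Ψ s) h) = ∫ x, Ψ s x ^ 2 := by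
    simp only [BB_apply, toCc, sq]
  have h4 : κlo * wform (wc A A') (measurable_wc ct.measA ct.measA') (abs_wc_le hSN hSE A A')
      (toCc (Ψ s) h) (toCc (Ψ s) h) ≤ ∫ x, rep x * Ψ s x ^ 2 := by
    rw [wform_apply, ← integral_const_mul]
    refine integral_mono ((integrable_w_mul (measurable_wc ct.measA ct.measA')
      (abs_wc_le hSN hSE A A') _ _).const_mul _)
      (MB.integrable_rep_cc (h.1.continuous.pow 2) hsq) fun x => ?_
    simp only [toCc, ← sq, ← mul_assoc]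
    exact mul_le_mul_of_nonneg_right (wc_le_rep ct.lo x) (sq_nonneg _)
  have h5 : ∫ x, ((∑ i, V (x i)) + g * rep x) * Ψ s x ^ 2 =
      (∑ i, ∫ x, V (x i) * Ψ s x ^ 2) + g * ∫ x, rep x * Ψ s x ^ 2 := by
    have i1 : ∀ i, Integrable fun x : Cf N => V (x i) * Ψ s x ^ 2 := fun i =>
      MB.integrable_pot_cc hV i (h.1.continuous.pow 2) hsq
    have i2 : Integrable fun x : Cf N => g * (rep x * Ψ s x ^ 2) :=
      (MB.integrable_rep_cc (h.1.continuous.pow 2) hsq).const_mul g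
    rw [← integral_finsetSum _ fun i _ => i1 i, ← integral_const_mul,
      ← integral_add (integrable_finsetSum _ fun i _ => i1 i) i2]
    refine integral_congr_ae (Filter.Eventually.of_forall fun x => ?_)
    simp only [add_mul, sum_mul, mul_assoc]
  have h6 : 0 ≤ ∫ x, Ψ s x ^ 2 := integral_nonneg fun x => sq_nonneg _
  rw [sum_add_distrib, sum_add_distrib (f := fun i => 1 / 2 * ∑ k, ∫ x, pdN i k (Ψ s) x ^ 2),
    sum_const, card_univ, Fintype.card_fin, nsmul_eq_mul, ← mul_sum] at h2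
  rw [h5]
  rw [h3] at h1 h2
  have h7 := mul_le_mul_of_nonneg_left h4 hg.le
  have h8 := mul_le_mul_of_nonneg_right (mul_le_mul_of_nonneg_right hSN hδ) h6
  linarith

end

end Vale.Agent.P370Z
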