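import Vale.Agent.P370Z.MBLOW.Joint

/-!
# P370, many-body lower bound: the abstract inequality
-/

namespace Vale.Agent.P370Z.MBLOW

open Finset

variable {H ι C D : Type} [AddCommGroup H] [Module ℝ H] [Fintype ι] [DecidableEq ι]
  [Fintype C] [DecidableEq C] [Fintype D] [DecidableEq D]

/-- The operators of the many-body problem. -/
structure Ops (B W : H →ₗ[ℝ] H →ₗ[ℝ] ℝ) (P : ι → C ⊕ D → Module.End ℝ H)
    (K : ι → C → Module.End ℝ H) (nb : ℕ) (M τ β : ℝ) : Prop where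
  Bsymm : ∀ x y, B x y = B y x
  Bpos : ∀ x, 0 ≤ B x x
  Wsymm : ∀ x y, W x y = W y x
  Wpos : ∀ x, 0 ≤ W x x
  Wle : ∀ x, W x x ≤ M * B x x
  Padj : ∀ i μ x y, B (P i μ x) y = B x (P i μ y)
  Pmul : ∀ i μ ν, P i μ * P i ν = if μ = ν then P i μ else 0
  Pcomm : ∀ i j μ ν, i ≠ j → P i μ * P j ν = P j ν * P i μ
  PK : ∀ i c, P i (.inl c) * K i c = K i c
  KP : ∀ i c c', K i c * P i (.inl c') = 0
  KPcomm : ∀ i j c ν, i ≠ j → K i c * P j ν = P j ν * K i c
  Knorm : ∀ i c x, B (K i c x) (K i c x) ≤ τ ^ 2 * B x x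
  good : ∀ x : (ι → C ⊕ D) → H, (∀ l i, P i (l i) (x l) = x l) →
    (∀ l, x l ≠ 0 → (univ.filter fun i => (l i).isRight = true).card = nb) →
    β * B (∑ l, x l) (∑ l, x l) ≤ W (∑ l, x l) (∑ l, x l)

/-- The projections, with the complement of the orbitals. -/
def EE (P : ι → C ⊕ D → Module.End ℝ H) (i : ι) : Option (C ⊕ D) → Module.End ℝ H
  | none => 1 - ∑ μ, P i μ
  | some μ => P i μ

/-- Core labels. -/
def IsCore : Option (C ⊕ D) → Bool
  | some (.inl _) => true
  | _ => false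

/-- The number of core labels. -/
def core (l : ι → Option (C ⊕ D)) : ℕ := (univ.filter fun i => IsCore (l i) = true).card

omit [Fintype C] [DecidableEq C] [Fintype D] [DecidableEq D] in
theorem isCore_iff (o : Option (C ⊕ D)) : IsCore o = true ↔ ∃ c, o = some (.inl c) := by
  rcases o with _ | (c | d) <;> simp [IsCore]

variable {B W : H →ₗ[ℝ] H →ₗ[ℝ] ℝ} {P : ι → C ⊕ D → Module.End ℝ H}
  {K : ι → C → Module.End ℝ H} {nb : ℕ} {M τ β : ℝ}

theorem Ops.EE_mul (h : Ops B W P K nb M τ β) (i : ι) (o o' : Option (C ⊕ D)) :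
    EE P i o * EE P i o' = if o = o' then EE P i o else 0 := by
  have h1 : ∀ μ, P i μ * ∑ ν, P i ν = P i μ := fun μ => by
    simp only [mul_sum, h.Pmul, sum_ite_eq, mem_univ, if_true]
  have h2 : ∀ μ, (∑ ν, P i ν) * P i μ = P i μ := fun μ => by
    simp only [sum_mul, h.Pmul, sum_ite_eq', mem_univ, if_true]
  rcases o with _ | μ <;> rcases o' with _ | ν
  · simp only [EE, if_true, mul_sub, sub_mul, mul_one, one_mul]
    rw [sum_mul]
    simp only [h1, sub_self, sub_zero]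
  · simp only [EE, sub_mul, one_mul, h2, sub_self, reduceCtorEq, if_false]
  · simp only [EE, mul_sub, mul_one, h1, sub_self, reduceCtorEq, if_false]
  · simp only [EE, h.Pmul, Option.some.injEq]

omit [Fintype ι] [DecidableEq ι] [DecidableEq C] [DecidableEq D] in
theorem comm_EE {k : Module.End ℝ H} {j : ι} (hk : ∀ ν, k * P j ν = P j ν * k)
    (o : Option (C ⊕ D)) : k * EE P j o = EE P j o * k := by
  rcases o with _ | ν
  · simp only [EE, mul_sub, sub_mul, mul_one, one_mul, mul_sum, sum_mul, hk]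
  · exact hk ν

theorem Ops.EE_adj (h : Ops B W P K nb M τ β) (i : ι) (o : Option (C ⊕ D)) (x y : H) :
    B (EE P i o x) y = B x (EE P i o y) := by
  rcases o with _ | μ
  · simp only [EE, LinearMap.sub_apply, Module.End.one_apply, LinearMap.sum_apply, map_sub,
      map_sum, h.Padj]
  · exact h.Padj i μ x y

/-- The joint decomposition of a vector which obeys the Pauli principle. -/
theorem Ops.decomp (h : Ops B W P K nb M τ β) (Ψ : H) (s : ι → Fin 2)
    (pauli : ∀ i j, i ≠ j → s i = s j → ∀ μ, P i μ (P j μ Ψ) = 0) :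
    ∃ ψ : (ι → Option (C ⊕ D)) → H, ∑ l, ψ l = Ψ ∧
      (∀ l i o, EE P i o (ψ l) = if l i = o then ψ l else 0) ∧
      ∀ l, ψ l ≠ 0 → core l ≤ 2 * Fintype.card C := by
  obtain ⟨π, h1, h2, h3⟩ := joint_decomp (EE P)
    (fun i => by rw [Fintype.sum_option]; simp [EE]) h.EE_mul
    (fun i j o o' hij => comm_EE (fun ν => (comm_EE (fun μ => h.Pcomm j i ν μ hij.symm) o).symm) o')
  refine ⟨fun l => π l Ψ, ?_, fun l i o => ?_, fun l hl => ?_⟩
  · rw [← LinearMap.sum_apply, h1, Module.End.one_apply]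
  · rw [← Module.End.mul_apply, h2]
    split_ifs <;> rfl
  · have h4 : (univ.filter fun i => IsCore (l i) = true).card ≤
        ((univ.image fun c : C => (some (.inl c) : Option (C ⊕ D))) ×ˢ
          (univ : Finset (Fin 2))).card := by
      refine card_le_card_of_injOn (fun i => (l i, s i)) (fun i hi => ?_) fun i hi j _ hij => ?_
      · obtain ⟨c, hc⟩ := (isCore_iff _).1 (mem_filter.1 hi).2
        simp only [coe_product, coe_image, coe_univ, Set.mem_prod, Set.mem_image, Set.mem_univ,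
          true_and, and_true]
        exact ⟨c, hc.symm⟩
      · by_contra hne
        apply hl
        obtain ⟨c, hc⟩ := (isCore_iff _).1 (mem_filter.1 hi).2
        have e1 : l i = l j := congrArg Prod.fst hij
        have e2 : s i = s j := congrArg Prod.snd hij
        have a1 : π l * EE P i (some (.inl c)) = π l := by rw [h3, h2, if_pos hc]
        have a2 : π l * EE P j (some (.inl c)) = π l := by rw [h3, h2, if_pos (e1 ▸ hc)]
        have a3 : π l * EE P i (some (.inl c)) * EE P j (some (.inl c)) = π l := by rw [a1, a2]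
        show π l Ψ = 0
        rw [← a3, Module.End.mul_apply, Module.End.mul_apply]
        have := pauli i j hne e2 (.inl c)
        simp only [EE]
        rw [this, map_zero]
    refine h4.trans ?_
    rw [card_product, card_univ, Fintype.card_fin, mul_comm]
    exact Nat.mul_le_mul_left _ (card_image_le.trans (card_univ (α := C)).le)

section Decomp

variable {Ψ : H} {ψ : (ι → Option (C ⊕ D)) → H}

theorem Ops.orth (h : Ops B W P K nb M τ β)
    (hE : ∀ l i o, EE P i o (ψ l) = if l i = o then ψ l else 0) {l l' : ι → Option (C ⊕ D)}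
    (hne : l ≠ l') : B (ψ l) (ψ l') = 0 := by
  obtain ⟨i, hi⟩ := Function.ne_iff.1 hne
  have h1 := hE l i (l i)
  rw [if_pos rfl] at h1
  rw [← h1, h.EE_adj, hE, if_neg (Ne.symm hi), map_zero]

theorem Ops.B_sum (h : Ops B W P K nb M τ β)
    (hE : ∀ l i o, EE P i o (ψ l) = if l i = o then ψ l else 0)
    (T : Finset (ι → Option (C ⊕ D))) :
    B (∑ l ∈ T, ψ l) (∑ l ∈ T, ψ l) = ∑ l ∈ T, B (ψ l) (ψ l) := by
  rw [map_sum]
  refine sum_congr rfl fun l hl => ?_
  rw [map_sum, LinearMap.sum_apply]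
  exact sum_eq_single l (fun l' _ hne => h.orth hE hne) fun hn => absurd hl hn

theorem Ops.B_EE (h : Ops B W P K nb M τ β) (hs : ∑ l, ψ l = Ψ)
    (hE : ∀ l i o, EE P i o (ψ l) = if l i = o then ψ l else 0) (i : ι) (o : Option (C ⊕ D)) :
    B Ψ (EE P i o Ψ) = ∑ l, if l i = o then B (ψ l) (ψ l) else 0 := by
  have h1 : ∀ l, B Ψ (ψ l) = B (ψ l) (ψ l) := fun l => by
    rw [← hs, map_sum, LinearMap.sum_apply]
    exact sum_eq_single l (fun l' _ hne => h.orth hE hne) fun hn => absurd (mem_univ _) hn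
  have h2 : EE P i o Ψ = ∑ l, if l i = o then ψ l else 0 := by
    conv_lhs => rw [← hs, map_sum]
    exact sum_congr rfl fun l _ => hE l i o
  rw [h2, map_sum]
  refine sum_congr rfl fun l _ => ?_
  split_ifs
  · exact h1 l
  · exact map_zero _

/-- The cross term vanishes on the components with full core. -/
theorem Ops.cross (h : Ops B W P K nb M τ β) (hs : ∑ l, ψ l = Ψ)
    (hE : ∀ l i o, EE P i o (ψ l) = if l i = o then ψ l else 0)
    (hP : ∀ l, ψ l ≠ 0 → core l ≤ 2 * Fintype.card C) (i : ι) (c : C)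
    {l : ι → Option (C ⊕ D)} (hl : 2 * Fintype.card C ≤ core l) : B Ψ (K i c (ψ l)) = 0 := by
  by_cases hc : IsCore (l i) = true
  · obtain ⟨c', hc'⟩ := (isCore_iff _).1 hc
    have h1 := hE l i (some (.inl c'))
    rw [if_pos hc'] at h1
    rw [← h1, ← Module.End.mul_apply]
    simp only [EE]
    rw [h.KP, LinearMap.zero_apply, map_zero]
  rw [← hs, map_sum, LinearMap.sum_apply]
  refine sum_eq_zero fun l' _ => ?_
  by_cases h1 : ∀ j, j ≠ i → l' j = l j
  · by_cases h2 : l' i = some (.inl c)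
    · have h3 : ψ l' = 0 := by
        by_contra hne
        have h4 := hP l' hne
        have h5 : (univ.filter fun k => IsCore (l' k) = true) =
            insert i (univ.filter fun k => IsCore (l k) = true) := by
          ext k
          by_cases hk : k = i
          · subst hk
            simp only [mem_filter, mem_univ, true_and, mem_insert, true_or, iff_true, h2]
            rfl
          · simp [hk, h1 k hk]
        have h6 : core l' = core l + 1 := by
          unfold core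
          rw [h5, card_insert_of_notMem (by simpa using hc)]
        omega
      rw [h3, map_zero, LinearMap.zero_apply]
    · rw [← h.PK, Module.End.mul_apply]
      have h3 := h.EE_adj i (some (.inl c)) (ψ l') (K i c (ψ l))
      rw [hE, if_neg h2, map_zero, LinearMap.zero_apply] at h3
      exact h3.symm
  · push Not at h1
    obtain ⟨j, hj, hne⟩ := h1
    have h2 := hE l' j (l' j)
    rw [if_pos rfl] at h2
    rw [← h2, h.EE_adj, ← Module.End.mul_apply,
      ← comm_EE (fun ν => h.KPcomm i j c ν hj.symm), Module.End.mul_apply, hE,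
      if_neg (Ne.symm hne), map_zero, map_zero]

/-- The good component. -/
theorem Ops.good' (h : Ops B W P K nb M τ β) (hN : Fintype.card ι = 2 * Fintype.card C + nb)
    (hE : ∀ l i o, EE P i o (ψ l) = if l i = o then ψ l else 0)
    (hP : ∀ l, ψ l ≠ 0 → core l ≤ 2 * Fintype.card C) (T : Finset (ι → Option (C ⊕ D)))
    (hT : ∀ l ∈ T, 2 * Fintype.card C ≤ core l ∧ ∀ i, l i ≠ none) :
    β * B (∑ l ∈ T, ψ l) (∑ l ∈ T, ψ l) ≤ W (∑ l ∈ T, ψ l) (∑ l ∈ T, ψ l) := by
  have e : ∑ l : ι → C ⊕ D, (if (fun i => some (l i)) ∈ T then ψ (fun i => some (l i)) else 0) =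
      ∑ l ∈ T, ψ l := by
    rw [← sum_filter]
    refine sum_bij (fun l _ => fun i => some (l i)) (fun l hl => (mem_filter.1 hl).2)
      (fun l _ l' _ hl => funext fun i => Option.some.inj (congrFun hl i)) (fun l hl => ?_)
      fun _ _ => rfl
    choose m hm using fun i => Option.ne_none_iff_exists.1 ((hT l hl).2 i)
    have : (fun i => some (m i)) = l := funext hm
    exact ⟨m, mem_filter.2 ⟨mem_univ _, this ▸ hl⟩, this⟩
  rw [← e]
  refine h.good _ (fun l i => ?_) fun l hl => ?_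
  · split_ifs
    · have := hE (fun i => some (l i)) i (some (l i))
      rwa [if_pos rfl] at this
    · exact map_zero _
  · split_ifs at hl with hT'
    · have h1 : (univ.filter fun i => IsCore (some (l i)) = true).card ≤ _ := hP _ hl
      have h2 : _ ≤ (univ.filter fun i => IsCore (some (l i)) = true).card := (hT _ hT').1
      have h3 := card_filter_add_card_filter_not (s := (univ : Finset ι))
        (fun i => (l i).isRight = true)
      have h4 : (univ.filter fun i => ¬ (l i).isRight = true) =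
          univ.filter fun i => IsCore (some (l i)) = true := by
        refine filter_congr fun i _ => ?_
        rcases l i with c | d <;> simp [IsCore]
      rw [h4, card_univ] at h3
      omega
    · exact absurd rfl hl

/-- The labels with incomplete core. -/
def T1 (ι C D : Type) [Fintype ι] [DecidableEq ι] [Fintype C] [DecidableEq C] [Fintype D]
    [DecidableEq D] : Finset (ι → Option (C ⊕ D)) :=
  univ.filter fun l => core l < 2 * Fintype.card C

/-- The good labels. -/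
def Tg (ι C D : Type) [Fintype ι] [DecidableEq ι] [Fintype C] [DecidableEq C] [Fintype D]
    [DecidableEq D] : Finset (ι → Option (C ⊕ D)) :=
  univ.filter fun l => 2 * Fintype.card C ≤ core l ∧ ∀ i, l i ≠ none

/-- The bad labels. -/
def Tb (ι C D : Type) [Fintype ι] [DecidableEq ι] [Fintype C] [DecidableEq C] [Fintype D]
    [DecidableEq D] : Finset (ι → Option (C ⊕ D)) :=
  univ.filter fun l => ¬ (2 * Fintype.card C ≤ core l ∧ ∀ i, l i ≠ none)

theorem Ops.diag (h : Ops B W P K nb M τ β) (hs : ∑ l, ψ l = Ψ)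
    (hE : ∀ l i o, EE P i o (ψ l) = if l i = o then ψ l else 0)
    (hP : ∀ l, ψ l ≠ 0 → core l ≤ 2 * Fintype.card C) {Tc γ : ℝ} (hγ : 0 < γ)
    (hγT : 2 * γ ≤ Tc) :
    -(2 * Fintype.card C * Tc) * B Ψ Ψ + Tc / 2 * (∑ l ∈ T1 ι C D, B (ψ l) (ψ l)) +
      γ * (∑ l ∈ Tb ι C D, B (ψ l) (ψ l)) ≤
      ∑ i, (-(Tc * ∑ c, B Ψ (P i (.inl c) Ψ)) + γ * (B Ψ Ψ - ∑ μ, B Ψ (P i μ Ψ))) := by
  have hT : 0 < Tc := by linarith
  obtain ⟨n, hn⟩ : ∃ n : (ι → Option (C ⊕ D)) → ℝ, ∀ l, B (ψ l) (ψ l) = n l := ⟨_, fun _ => rfl⟩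
  have hn0 : ∀ l, 0 ≤ n l := fun l => hn l ▸ h.Bpos _
  have htot : B Ψ Ψ = ∑ l, n l := by
    rw [← hs, h.B_sum hE univ]
    simp only [hn]
  have d1 : ∀ i, ∑ c, B Ψ (P i (.inl c) Ψ) = ∑ l, if IsCore (l i) = true then n l else 0 := by
    intro i
    have := fun c : C => h.B_EE hs hE i (some (.inl c))
    simp only [EE, hn] at this
    simp only [this]
    rw [sum_comm]
    refine sum_congr rfl fun l _ => ?_
    rcases l i with _ | (c | d) <;> simp [IsCore]
  have d2 : ∀ i, B Ψ Ψ - ∑ μ, B Ψ (P i μ Ψ) = ∑ l, if l i = none then n l else 0 := by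
    intro i
    have := h.B_EE hs hE i none
    simp only [EE, LinearMap.sub_apply, Module.End.one_apply, LinearMap.sum_apply, map_sub,
      map_sum, hn] at this
    exact this
  simp only [d1, d2, hn]
  rw [htot, T1, Tb, sum_filter, sum_filter]
  simp only [mul_sum, ← sum_neg_distrib, ← sum_add_distrib]
  rw [sum_comm]
  refine sum_le_sum fun l _ => ?_
  by_cases hl : ψ l = 0
  · have : n l = 0 := by rw [← hn, hl, map_zero]
    simp [this]
  have a1 : ∑ i, (-(Tc * if IsCore (l i) = true then n l else 0) +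
      γ * if l i = none then n l else 0) = -(Tc * (core l * n l)) +
      γ * (((univ.filter fun i => l i = none).card : ℝ) * n l) := by
    rw [sum_add_distrib, sum_neg_distrib, ← mul_sum, ← mul_sum, ← sum_filter, ← sum_filter,
      sum_const, sum_const, nsmul_eq_mul, nsmul_eq_mul]
    rfl
  rw [a1]
  have a2 := hP l hl
  have a3 := hn0 l
  have a4 : (0 : ℝ) ≤ ((univ.filter fun i => l i = none).card : ℝ) := Nat.cast_nonneg _
  have a8 := mul_nonneg hγ.le (mul_nonneg a4 a3)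
  by_cases c1 : core l < 2 * Fintype.card C
  · rw [if_pos c1, if_pos (fun hc => by omega)]
    have a5 : (core l : ℝ) + 1 ≤ 2 * Fintype.card C := by exact_mod_cast c1
    have a6 := mul_le_mul_of_nonneg_left (mul_le_mul_of_nonneg_right a5 a3) hT.le
    have a7 := mul_le_mul_of_nonneg_right hγT a3
    linarith
  · have a5 : (core l : ℝ) = 2 * Fintype.card C := by
      have : core l = 2 * Fintype.card C := by omega
      exact_mod_cast this
    rw [if_neg c1, a5]
    by_cases c2 : 2 * Fintype.card C ≤ core l ∧ ∀ i, l i ≠ none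
    · rw [if_neg (not_not.2 c2)]
      linarith
    · rw [if_pos c2]
      have a6 : ∃ i, l i = none := by
        by_contra hne
        push Not at hne
        exact c2 ⟨by omega, hne⟩
      obtain ⟨i, hi⟩ := a6
      have a7 : (1 : ℝ) ≤ ((univ.filter fun i => l i = none).card : ℝ) := by
        exact_mod_cast card_pos.2 ⟨i, mem_filter.2 ⟨mem_univ _, hi⟩⟩
      have a9 := mul_le_mul_of_nonneg_left (mul_le_mul_of_nonneg_right a7 a3) hγ.le
      linarith

theorem Ops.cross_le (h : Ops B W P K nb M τ β) (hs : ∑ l, ψ l = Ψ)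
    (hE : ∀ l i o, EE P i o (ψ l) = if l i = o then ψ l else 0)
    (hP : ∀ l, ψ l ≠ 0 → core l ≤ 2 * Fintype.card C) {Tc Z : ℝ} (hT : 0 < Tc) (hZ0 : 0 < Z)
    (hZ : (Fintype.card ι : ℝ) * Fintype.card C ≤ Z) :
    -(2 * (Z * τ) ^ 2 / Tc * B Ψ Ψ + Tc / 2 * ∑ l ∈ T1 ι C D, B (ψ l) (ψ l)) ≤
      ∑ i, 2 * ∑ c, B Ψ (K i c Ψ) := by
  have hB0 := h.Bpos Ψ
  have e0 := h.B_sum hE (T1 ι C D)
  obtain ⟨n1, hn1⟩ : ∃ n1, ∑ l ∈ T1 ι C D, B (ψ l) (ψ l) = n1 := ⟨_, rfl⟩
  have hn10 : 0 ≤ n1 := hn1 ▸ sum_nonneg fun l _ => h.Bpos _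
  rw [hn1] at e0 ⊢
  have c1 : ∀ i c, -(2 * Z * τ ^ 2 / Tc * B Ψ Ψ + Tc / (2 * Z) * n1) ≤ 2 * B Ψ (K i c Ψ) := by
    intro i c
    have e1 : B Ψ (K i c Ψ) = B Ψ (K i c (∑ l ∈ T1 ι C D, ψ l)) := by
      have e2 : K i c Ψ = K i c (∑ l ∈ T1 ι C D, ψ l) +
          ∑ l ∈ univ.filter fun l : ι → Option (C ⊕ D) => ¬ core l < 2 * Fintype.card C,
            K i c (ψ l) := by
        rw [← map_sum, ← map_add, T1, sum_filter_add_sum_filter_not, hs]
      rw [e2, map_add, map_sum (B Ψ), sum_eq_zero fun l hl =>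
        h.cross hs hE hP i c (not_lt.1 (mem_filter.1 hl).2), add_zero]
    rw [e1]
    refine neg_add_le_two_mul (by positivity) (by positivity) ?_
    have e3 := LinearMap.BilinForm.apply_sq_le_of_symm B h.Bpos ⟨h.Bsymm⟩ Ψ
      (K i c (∑ l ∈ T1 ι C D, ψ l))
    have e4 := h.Knorm i c (∑ l ∈ T1 ι C D, ψ l)
    rw [e0] at e4
    calc _ ≤ B Ψ Ψ * (τ ^ 2 * n1) := e3.trans (mul_le_mul_of_nonneg_left e4 hB0)
      _ = _ := by field_simp
  have e1 : ∑ _i : ι, ∑ _c : C, -(2 * Z * τ ^ 2 / Tc * B Ψ Ψ + Tc / (2 * Z) * n1) ≤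
      ∑ i, 2 * ∑ c, B Ψ (K i c Ψ) := by
    refine sum_le_sum fun i _ => ?_
    rw [mul_sum]
    exact sum_le_sum fun c _ => c1 i c
  refine le_trans ?_ e1
  simp only [sum_const, card_univ, nsmul_eq_mul]
  have e2 : 0 ≤ 2 * Z * τ ^ 2 / Tc * B Ψ Ψ + Tc / (2 * Z) * n1 := by positivity
  have e3 := mul_le_mul_of_nonneg_right hZ e2
  have e4 : Z * (2 * Z * τ ^ 2 / Tc * B Ψ Ψ + Tc / (2 * Z) * n1) =
      2 * (Z * τ) ^ 2 / Tc * B Ψ Ψ + Tc / 2 * n1 := by field_simp
  linarith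

theorem Ops.rep_le (h : Ops B W P K nb M τ β) (hN : Fintype.card ι = 2 * Fintype.card C + nb)
    (hs : ∑ l, ψ l = Ψ) (hE : ∀ l i o, EE P i o (ψ l) = if l i = o then ψ l else 0)
    (hP : ∀ l, ψ l ≠ 0 → core l ≤ 2 * Fintype.card C) {γ G : ℝ} (hγ : 0 < γ) (hG : 0 ≤ G) :
    G * β * (∑ l ∈ Tg ι C D, B (ψ l) (ψ l)) -
      (2 * (G * M) ^ 2 / γ * (∑ l ∈ Tg ι C D, B (ψ l) (ψ l)) +
        γ / 2 * ∑ l ∈ Tb ι C D, B (ψ l) (ψ l)) ≤ G * W Ψ Ψ := by
  have e4 := h.good' hN hE hP (Tg ι C D) fun l hl => (mem_filter.1 hl).2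
  rw [← h.B_sum hE, ← h.B_sum hE]
  have e1 : Ψ = ∑ l ∈ Tg ι C D, ψ l + ∑ l ∈ Tb ι C D, ψ l := by
    rw [Tg, Tb, sum_filter_add_sum_filter_not, hs]
  generalize ∑ l ∈ Tg ι C D, ψ l = g at e1 e4
  generalize ∑ l ∈ Tb ι C D, ψ l = q at e1
  have e5 : W Ψ Ψ = W g g + 2 * W g q + W q q := by
    rw [e1]
    simp only [map_add, LinearMap.add_apply, h.Wsymm q g]
    ring
  have e6 := LinearMap.BilinForm.apply_sq_le_of_symm W h.Wpos ⟨h.Wsymm⟩ g q
  have e7 := h.Wle g
  have e9 : W g g * W q q ≤ (M * B g g) * (M * B q q) :=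
    mul_le_mul e7 (h.Wle q) (h.Wpos q) ((h.Wpos g).trans e7)
  have hg := h.Bpos g
  have hq := h.Bpos q
  have e10 : -(2 * (G * M) ^ 2 / γ * B g g + γ / 2 * B q q) ≤ 2 * (G * W g q) := by
    refine neg_add_le_two_mul (by positivity) (by positivity) ?_
    calc (G * W g q) ^ 2 = G ^ 2 * W g q ^ 2 := by ring
      _ ≤ G ^ 2 * ((M * B g g) * (M * B q q)) :=
          mul_le_mul_of_nonneg_left (e6.trans e9) (sq_nonneg _)
      _ = _ := by field_simp
  rw [e5]
  have e11 := mul_le_mul_of_nonneg_left e4 hG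
  have e12 := mul_nonneg hG (h.Wpos q)
  linarith

end Decomp

/-- The abstract lower bound. -/
theorem Ops.lower (h : Ops B W P K nb M τ β) (hN : Fintype.card ι = 2 * Fintype.card C + nb)
    (Ψ : H) (s : ι → Fin 2) (pauli : ∀ i j, i ≠ j → s i = s j → ∀ μ, P i μ (P j μ Ψ) = 0)
    {Tc γ G b e Z : ℝ} (hγ : 0 < γ) (hγT : 2 * γ ≤ Tc) (hG : 0 ≤ G) (hGγ : 2 * G ≤ γ)
    (hb1 : b ≤ 1) (he : 0 ≤ e) (hβ : β = b - e) (hZ0 : 0 < Z)
    (hZ : (Fintype.card ι : ℝ) * Fintype.card C ≤ Z) :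
    (-(2 * Fintype.card C * Tc) + G * b -
        (2 * (Z * τ) ^ 2 / Tc + 2 * (G * M) ^ 2 / γ + G * e)) * B Ψ Ψ ≤
      ∑ i, (-(Tc * ∑ c, B Ψ (P i (.inl c) Ψ)) + γ * (B Ψ Ψ - ∑ μ, B Ψ (P i μ Ψ)) +
        2 * ∑ c, B Ψ (K i c Ψ)) + G * W Ψ Ψ := by
  obtain ⟨ψ, hs, hE, hP⟩ := h.decomp Ψ s pauli
  have hT : 0 < Tc := by linarith
  have d3 := h.diag hs hE hP hγ hγT
  have c2 := h.cross_le hs hE hP hT hZ0 hZ
  have r1 := h.rep_le hN hs hE hP hγ hG
  have hsplit : B Ψ Ψ = ∑ l ∈ Tg ι C D, B (ψ l) (ψ l) + ∑ l ∈ Tb ι C D, B (ψ l) (ψ l) := by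
    rw [Tg, Tb, sum_filter_add_sum_filter_not, ← h.B_sum hE, hs]
  have hnb0 : 0 ≤ ∑ l ∈ Tb ι C D, B (ψ l) (ψ l) := sum_nonneg fun l _ => h.Bpos _
  generalize ∑ l ∈ Tg ι C D, B (ψ l) (ψ l) = ng at *
  generalize ∑ l ∈ Tb ι C D, B (ψ l) (ψ l) = nb' at *
  generalize ∑ l ∈ T1 ι C D, B (ψ l) (ψ l) = n1 at *
  rw [sum_add_distrib]
  have f1 : G * b * nb' ≤ γ / 2 * nb' := by
    refine mul_le_mul_of_nonneg_right ?_ hnb0
    linarith [mul_le_mul_of_nonneg_left hb1 hG]
  have f2 : 0 ≤ 2 * (G * M) ^ 2 / γ * nb' := by positivity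
  have f3 : 0 ≤ G * e * nb' := by positivity
  rw [hβ] at r1
  have f4 : (-(2 * Fintype.card C * Tc) + G * b -
        (2 * (Z * τ) ^ 2 / Tc + 2 * (G * M) ^ 2 / γ + G * e)) * B Ψ Ψ =
      -(2 * Fintype.card C * Tc) * B Ψ Ψ - 2 * (Z * τ) ^ 2 / Tc * B Ψ Ψ +
        (G * b - 2 * (G * M) ^ 2 / γ - G * e) * (ng + nb') := by
    rw [← hsplit]; ring
  rw [f4]
  linarith

end Vale.Agent.P370Z.MBLOW
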