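import Mathlib

/-!
# P370, many-body lower bound: the algebraic part

Joint decomposition along commuting families of orthogonal idempotents, and the abstract form of
the lower bound.
-/

namespace Vale.Agent.P370Z.MBLOW

open Finset

/-- Joint decomposition along commuting resolutions of the identity. -/
theorem joint_decomp {R ι O : Type*} [Ring R] [Fintype ι] [DecidableEq ι] [Fintype O]
    [DecidableEq O] (E : ι → O → R) (hsum : ∀ i, ∑ o, E i o = 1)
    (horth : ∀ i o o', E i o * E i o' = if o = o' then E i o else 0)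
    (hcomm : ∀ i j o o', i ≠ j → E i o * E j o' = E j o' * E i o) :
    ∃ π : (ι → O) → R, ∑ l, π l = 1 ∧
      (∀ l i o, E i o * π l = if l i = o then π l else 0) ∧
      ∀ l i o, π l * E i o = E i o * π l := by
  have hc : ∀ a ∈ Set.range (fun p : ι × O => E p.1 p.2),
      ∀ b ∈ Set.range (fun p : ι × O => E p.1 p.2), a * b = b * a := by
    rintro _ ⟨⟨i, o⟩, rfl⟩ _ ⟨⟨j, o'⟩, rfl⟩
    by_cases hij : i = j
    · subst hij
      simp only [horth]
      by_cases h : o = o'
      · subst h; rfl
      · rw [if_neg h, if_neg (Ne.symm h)]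
    · exact hcomm i j o o' hij
  set A := Algebra.adjoin ℤ (Set.range (fun p : ι × O => E p.1 p.2)) with hA
  have hA2 : IsMulCommutative A := Algebra.isMulCommutative_adjoin ℤ hc
  let : CommRing A := { (inferInstance : Ring A) with mul_comm := hA2.is_comm.comm }
  let e : ι → O → A := fun i o => ⟨E i o, Algebra.subset_adjoin ⟨(i, o), rfl⟩⟩
  have he1 : ∀ i, ∑ o, e i o = 1 := fun i => by
    apply Subtype.ext
    rw [AddSubmonoidClass.coe_finsetSum]
    exact hsum i
  have he2 : ∀ i o o', e i o * e i o' = if o = o' then e i o else 0 := fun i o o' => by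
    apply Subtype.ext
    have := horth i o o'
    split_ifs at this ⊢ <;> exact this
  have h2 : ∀ (l : ι → O) i o, e i o * ∏ k, e k (l k) = if l i = o then ∏ k, e k (l k) else 0 := by
    intro l i o
    rw [← mul_prod_erase univ (fun k => e k (l k)) (mem_univ i), ← mul_assoc, he2]
    by_cases h : l i = o
    · rw [if_pos h.symm, if_pos h, h]
    · rw [if_neg (Ne.symm h), if_neg h, zero_mul]
  refine ⟨fun l => ((∏ k, e k (l k) : A) : R), ?_, fun l i o => ?_, fun l i o => ?_⟩
  · have h1 : ∑ l : ι → O, ∏ k, e k (l k) = 1 := by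
      rw [← Fintype.piFinset_univ, ← prod_univ_sum]
      simp only [he1, prod_const_one]
    rw [← AddSubmonoidClass.coe_finsetSum, h1]
    rfl
  · have := congrArg Subtype.val (h2 l i o)
    split_ifs at this ⊢ <;> exact this
  · exact congrArg Subtype.val (mul_comm (∏ k, e k (l k)) (e i o))

theorem neg_add_le_two_mul {z u v : ℝ} (hu : 0 ≤ u) (hv : 0 ≤ v) (h : z ^ 2 ≤ u * v) :
    -(u + v) ≤ 2 * z := by
  have h1 : (2 * z) ^ 2 ≤ (u + v) ^ 2 := by nlinarith [sq_nonneg (u - v)]
  have := abs_le_of_sq_le_sq' h1 (add_nonneg hu hv)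
  exact this.1

end Vale.Agent.P370Z.MBLOW
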