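import Vale.Agent.P370Z.MB.Up
import Vale.Agent.P370Z.MBLOW.Abs

/-!
# P370, many-body lower bound: rank one operators acting on one particle
-/

namespace Vale.Agent.P370Z.MBLOW

open MeasureTheory Finset Function

noncomputable section

/-- Continuous functions with compact support. -/
def CcS (X : Type) [TopologicalSpace X] : Submodule ℝ (X → ℝ) where
  carrier := {F | Continuous F ∧ HasCompactSupport F}
  add_mem' := fun ha hb => ⟨ha.1.add hb.1, ha.2.add hb.2⟩
  zero_mem' := ⟨continuous_const, HasCompactSupport.zero⟩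
  smul_mem' := fun c _ ha => ⟨ha.1.const_smul c, ha.2.smul_left⟩

variable {N : ℕ}

theorem integrable_w_mul {w : Cf N → ℝ} (hw : Measurable w) {M : ℝ} (hM : ∀ x, |w x| ≤ M)
    (F G : CcS (Cf N)) : Integrable fun x => w x * (F.1 x * G.1 x) :=
  Integrable.bdd_mul (c := M)
    ((F.2.1.mul G.2.1).integrable_of_hasCompactSupport F.2.2.mul_right)
    hw.aestronglyMeasurable (Filter.Eventually.of_forall hM)

/-- The form of the multiplication by a bounded function. -/
def wform (w : Cf N → ℝ) (hw : Measurable w) {M : ℝ} (hM : ∀ x, |w x| ≤ M) :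
    CcS (Cf N) →ₗ[ℝ] CcS (Cf N) →ₗ[ℝ] ℝ :=
  LinearMap.mk₂ ℝ (fun F G => ∫ x, w x * (F.1 x * G.1 x))
    (fun F F' G => by
      rw [← integral_add (integrable_w_mul hw hM F G) (integrable_w_mul hw hM F' G)]
      refine integral_congr_ae (Filter.Eventually.of_forall fun x => ?_)
      simp only [Submodule.coe_add, Pi.add_apply]
      ring)
    (fun c F G => by
      rw [smul_eq_mul, ← integral_const_mul]
      refine integral_congr_ae (Filter.Eventually.of_forall fun x => ?_)
      simp only [Submodule.coe_smul, Pi.smul_apply, smul_eq_mul]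
      ring)
    (fun F G G' => by
      rw [← integral_add (integrable_w_mul hw hM F G) (integrable_w_mul hw hM F G')]
      refine integral_congr_ae (Filter.Eventually.of_forall fun x => ?_)
      simp only [Submodule.coe_add, Pi.add_apply]
      ring)
    (fun c F G => by
      rw [smul_eq_mul, ← integral_const_mul]
      refine integral_congr_ae (Filter.Eventually.of_forall fun x => ?_)
      simp only [Submodule.coe_smul, Pi.smul_apply, smul_eq_mul]
      ring)

theorem wform_apply (w : Cf N → ℝ) (hw : Measurable w) {M : ℝ} (hM : ∀ x, |w x| ≤ M)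
    (F G : CcS (Cf N)) : wform w hw hM F G = ∫ x, w x * (F.1 x * G.1 x) := rfl

/-- The scalar product. -/
def BB (N : ℕ) : CcS (Cf N) →ₗ[ℝ] CcS (Cf N) →ₗ[ℝ] ℝ :=
  wform (fun _ => 1) measurable_const (M := 1) (fun _ => by simp)

theorem BB_apply (F G : CcS (Cf N)) : BB N F G = ∫ x, F.1 x * G.1 x := by
  simp only [BB, wform_apply, one_mul]

theorem BB_symm (F G : CcS (Cf N)) : BB N F G = BB N G F := by
  simp only [BB_apply, mul_comm]

theorem BB_pos (F : CcS (Cf N)) : 0 ≤ BB N F F := by
  rw [BB_apply]
  exact integral_nonneg fun x => mul_self_nonneg _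

theorem integrable_cc (F G : CcS (Cf N)) : Integrable fun x => F.1 x * G.1 x :=
  (F.2.1.mul G.2.1).integrable_of_hasCompactSupport F.2.2.mul_right

theorem continuous_slice (F : CcS (Cf N)) (x : Cf N) (i : Fin N) :
    Continuous fun t : P3 => F.1 (update x i t) :=
  F.2.1.comp (continuous_const.update i continuous_id)

theorem integrable_bF (b : CcS P3) (F : CcS (Cf N)) (x : Cf N) (i : Fin N) :
    Integrable fun t : P3 => b.1 t * F.1 (update x i t) :=
  (b.2.1.mul (continuous_slice F x i)).integrable_of_hasCompactSupport b.2.2.mul_right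

theorem kfun_mem (i : Fin N) (a b : CcS P3) (F : CcS (Cf N)) :
    (fun x : Cf N => a.1 (x i) * ∫ t, b.1 t * F.1 (update x i t)) ∈ CcS (Cf N) := by
  constructor
  · refine (a.2.1.comp (continuous_apply i)).mul ?_
    have h1 : Continuous fun x : Cf N => ∫ t in tsupport b.1, b.1 t * F.1 (update x i t) :=
      continuous_parametric_integral_of_continuous
        (f := fun (x : Cf N) (t : P3) => b.1 t * F.1 (update x i t))
        ((b.2.1.comp continuous_snd).mul
          (F.2.1.comp (continuous_fst.update i continuous_snd))) b.2.2.isCompact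
    refine h1.congr fun x => setIntegral_eq_integral_of_forall_compl_eq_zero fun t ht => ?_
    rw [image_eq_zero_of_notMem_tsupport ht, zero_mul]
  · obtain ⟨M, R, -, hR⟩ := MB.exists_bound F.2.1 F.2.2
    obtain ⟨M', R', -, hR'⟩ := MB.exists_bound1 a.2.1 a.2.2
    refine HasCompactSupport.intro (isCompact_closedBall (0 : Cf N) (max (max R R') 0))
      fun x hx => ?_
    rw [mem_closedBall_zero_iff, pi_norm_le_iff_of_nonneg (le_max_right _ _)] at hx
    push Not at hx
    obtain ⟨k, hk⟩ := hx
    have hk1 : R < ‖x k‖ := ((le_max_left _ _).trans (le_max_left _ _)).trans_lt hk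
    have hk2 : R' < ‖x k‖ := ((le_max_right _ _).trans (le_max_left _ _)).trans_lt hk
    by_cases hki : k = i
    · subst hki
      have : a.1 (x k) = 0 := by
        by_contra hne
        exact absurd (hR' _ hne) (not_le.2 hk2)
      rw [this, zero_mul]
    · have : ∀ t, F.1 (update x i t) = 0 := fun t => by
        by_contra hne
        have := hR _ hne k
        rw [update_of_ne hki] at this
        exact absurd this (not_le.2 hk1)
      simp only [this, mul_zero, integral_zero]

/-- The operator `|a⟩⟨b|` acting on the particle number `i`. -/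
def Kop (i : Fin N) (a b : CcS P3) : Module.End ℝ (CcS (Cf N)) where
  toFun F := ⟨fun x => a.1 (x i) * ∫ t, b.1 t * F.1 (update x i t), kfun_mem i a b F⟩
  map_add' F G := by
    apply Subtype.ext
    funext x
    simp only [Submodule.coe_add, Pi.add_apply, mul_add]
    rw [integral_add (integrable_bF b F x i) (integrable_bF b G x i), mul_add]
  map_smul' c F := by
    apply Subtype.ext
    funext x
    simp only [Submodule.coe_smul, Pi.smul_apply, smul_eq_mul, RingHom.id_apply]
    rw [mul_left_comm c, ← integral_const_mul c]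
    simp only [mul_left_comm c]

theorem Kop_apply (i : Fin N) (a b : CcS P3) (F : CcS (Cf N)) (x : Cf N) :
    (Kop i a b F).1 x = a.1 (x i) * ∫ t, b.1 t * F.1 (update x i t) := rfl

theorem Kop_mul (i : Fin N) (a b c d : CcS P3) :
    Kop i a b * Kop i c d = ip b.1 c.1 • Kop i a d := by
  refine LinearMap.ext fun F => Subtype.ext (funext fun x => ?_)
  simp only [Module.End.mul_apply, LinearMap.smul_apply, Submodule.coe_smul, Pi.smul_apply,
    smul_eq_mul, Kop_apply, update_self, update_idem, ← mul_assoc]
  rw [integral_mul_const, ip]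
  ring

theorem integrable_two {i j : Fin N} (b d : CcS P3) (F : CcS (Cf N)) (x : Cf N) :
    Integrable (uncurry fun t s : P3 => b.1 t * (d.1 s * F.1 (update (update x i t) j s)))
      (volume.prod volume) := by
  have h0 : Continuous fun p : P3 × P3 => update x i p.1 :=
    continuous_const.update i continuous_fst
  have h1 : Continuous fun p : P3 × P3 => update (update x i p.1) j p.2 :=
    h0.update j continuous_snd
  have hc : Continuous (uncurry fun t s : P3 =>
      b.1 t * (d.1 s * F.1 (update (update x i t) j s))) :=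
    (b.2.1.comp continuous_fst).mul ((d.2.1.comp continuous_snd).mul (F.2.1.comp h1))
  refine hc.integrable_of_hasCompactSupport ?_
  refine HasCompactSupport.intro (b.2.2.isCompact.prod d.2.2.isCompact) fun p hp => ?_
  rw [Set.mem_prod, not_and_or] at hp
  rcases hp with hp | hp
  · simp only [uncurry, image_eq_zero_of_notMem_tsupport hp, zero_mul]
  · simp only [uncurry, image_eq_zero_of_notMem_tsupport hp, zero_mul, mul_zero]

theorem Kop_Kop_apply {i j : Fin N} (h : i ≠ j) (a b c d : CcS P3) (F : CcS (Cf N)) (x : Cf N) :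
    (Kop i a b (Kop j c d F)).1 x = a.1 (x i) * c.1 (x j) *
      ∫ t, ∫ s, b.1 t * (d.1 s * F.1 (update (update x i t) j s)) := by
  simp only [Kop_apply, update_of_ne h.symm, integral_const_mul]
  rw [mul_assoc, ← integral_const_mul (c.1 (x j))]
  simp only [mul_left_comm (c.1 (x j))]

theorem Kop_comm {i j : Fin N} (h : i ≠ j) (a b c d : CcS P3) :
    Kop i a b * Kop j c d = Kop j c d * Kop i a b := by
  refine LinearMap.ext fun F => Subtype.ext (funext fun x => ?_)
  simp only [Module.End.mul_apply]
  rw [Kop_Kop_apply h, Kop_Kop_apply h.symm, integral_integral_swap (integrable_two b d F x),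
    mul_comm (a.1 (x i))]
  congr 2
  funext s
  congr 1
  funext t
  rw [update_comm h]
  ring

/-- The Pauli principle. -/
theorem Kop_pauli {i j : Fin N} (h : i ≠ j) (a b c : CcS P3) (F : CcS (Cf N))
    (hF : ∀ x, F.1 (x ∘ Equiv.swap i j) = -F.1 x) : Kop i a b (Kop j c b F) = 0 := by
  refine Subtype.ext (funext fun x => ?_)
  rw [Kop_Kop_apply h]
  have h1 : ∀ t s : P3, F.1 (update (update x i s) j t) = -F.1 (update (update x i t) j s) := by
    intro t s
    rw [← hF]
    refine congrArg F.1 ?_
    funext k
    by_cases hki : k = i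
    · subst hki
      simp [update_of_ne h]
    · by_cases hkj : k = j
      · subst hkj
        simp [update_of_ne h]
      · simp [Equiv.swap_apply_of_ne_of_ne hki hkj, update_of_ne hki, update_of_ne hkj]
  have h2 : (∫ t, ∫ s, b.1 t * (b.1 s * F.1 (update (update x i t) j s))) =
      -∫ t, ∫ s, b.1 t * (b.1 s * F.1 (update (update x i t) j s)) := by
    conv_lhs => rw [integral_integral_swap (integrable_two b b F x)]
    rw [← integral_neg]
    congr 1
    funext t
    rw [← integral_neg]
    congr 1
    funext s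
    rw [h1 t s]
    ring
  have h3 : (∫ t, ∫ s, b.1 t * (b.1 s * F.1 (update (update x i t) j s))) = 0 := by linarith
  rw [h3, mul_zero]
  rfl

/-- A common fixed vector of rank one projections is a multiple of the product. -/
theorem rank_one (a : Fin N → CcS P3) (ha : ∀ k, ip (a k).1 (a k).1 = 1) (G : CcS (Cf N))
    (hG : ∀ i, Kop i (a i) (a i) G = G) :
    ∃ κ : ℝ, ∀ x, G.1 x = κ * ∏ k, (a k).1 (x k) := by
  have h1 : ∀ i x t, G.1 x * (a i).1 t = G.1 (update x i t) * (a i).1 (x i) := by
    intro i x t
    have e1 := Kop_apply i (a i) (a i) G x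
    have e2 := Kop_apply i (a i) (a i) G (update x i t)
    rw [hG] at e1 e2
    simp only [update_self, update_idem] at e2
    rw [e1, e2]
    ring
  have h2 : ∀ (x y : Cf N) (T : Finset (Fin N)),
      G.1 x * ∏ k ∈ T, (a k).1 (y k) = G.1 (T.piecewise y x) * ∏ k ∈ T, (a k).1 (x k) := by
    intro x y T
    induction T using Finset.induction_on with
    | empty => simp
    | insert i T hi ih =>
      rw [prod_insert hi, prod_insert hi, piecewise_insert, mul_left_comm, ih, ← mul_assoc,
        ← mul_assoc, mul_comm ((a i).1 (y i)), h1 i, piecewise_eq_of_notMem _ _ _ hi]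
  refine ⟨∫ y, G.1 y * ∏ k, (a k).1 (y k), fun x => ?_⟩
  have h3 : ∫ y : Cf N, ∏ k, (a k).1 (y k) * (a k).1 (y k) = 1 := by
    rw [integral_fintype_prod_volume_eq_prod fun k y => (a k).1 y * (a k).1 y]
    exact prod_eq_one fun k _ => ha k
  rw [← integral_mul_const, ← mul_one (G.1 x), ← h3, ← integral_const_mul]
  refine integral_congr_ae (Filter.Eventually.of_forall fun y => ?_)
  have h4 := h2 x y univ
  rw [piecewise_univ] at h4
  simp only [prod_mul_distrib]
  rw [← mul_assoc, h4]
  ring

/-! ### Slices -/

section Slice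

variable {n : ℕ}

theorem integrable_slice (i : Fin (n + 1)) {F : Cf (n + 1) → ℝ} (hF : Integrable F) :
    Integrable fun p : P3 × (Fin n → P3) => F (i.insertNth p.1 p.2) :=
  (((volume_preserving_piFinSuccAbove (fun _ : Fin (n + 1) => P3) i).symm _).integrable_comp_emb
    (MeasurableEquiv.measurableEmbedding _)).2 hF

theorem integrable_sl (i : Fin (n + 1)) {F : Cf (n + 1) → ℝ} (hF : Integrable F) :
    Integrable fun y : Fin n → P3 => ∫ t, F (i.insertNth t y) :=
  (integrable_slice i hF).integral_prod_right

theorem integral_sl (i : Fin (n + 1)) {F : Cf (n + 1) → ℝ} (hF : Integrable F) :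
    ∫ y : Fin n → P3, ∫ t, F (i.insertNth t y) = ∫ x, F x := by
  rw [← ((volume_preserving_piFinSuccAbove (fun _ : Fin (n + 1) => P3) i).symm _).integral_comp']
  exact (integral_prod_symm _ (integrable_slice i hF)).symm

theorem sl_Kop (i : Fin (n + 1)) (a b : CcS P3) (F G : CcS (Cf (n + 1))) (y : Fin n → P3) :
    ∫ t, F.1 (i.insertNth t y) * (Kop i a b G).1 (i.insertNth t y) =
      ip a.1 (fun t => F.1 (i.insertNth t y)) * ip b.1 (fun t => G.1 (i.insertNth t y)) := by
  simp only [Kop_apply, Fin.insertNth_apply_same, Fin.update_insertNth, ip]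
  rw [← integral_mul_const]
  congr 1
  funext t
  ring

end Slice

theorem Kop_adj (i : Fin N) (a b : CcS P3) (F G : CcS (Cf N)) :
    BB N (Kop i a b F) G = BB N F (Kop i b a G) := by
  obtain ⟨n, rfl⟩ : ∃ n, N = n + 1 := ⟨N - 1, by have := i.pos; omega⟩
  rw [BB_symm, BB_apply, BB_apply, ← integral_sl i (integrable_cc _ _),
    ← integral_sl i (integrable_cc _ _)]
  simp only [sl_Kop, mul_comm]

theorem Kop_norm (i : Fin N) (a r : CcS P3) (ha : ip a.1 a.1 = 1) {T : ℝ} (hr : ip r.1 r.1 ≤ T)
    (F : CcS (Cf N)) : BB N (Kop i a r F) (Kop i a r F) ≤ T * BB N F F := by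
  have h1 : BB N (Kop i a r F) (Kop i a r F) = BB N F (Kop i r r F) := by
    rw [Kop_adj, ← Module.End.mul_apply, Kop_mul, ha, one_smul]
  have h2 : BB N (Kop i r r F) (Kop i r r F) = ip r.1 r.1 * BB N F (Kop i r r F) := by
    rw [Kop_adj, ← Module.End.mul_apply, Kop_mul, LinearMap.smul_apply, map_smul, smul_eq_mul]
  have h3 := LinearMap.BilinForm.apply_sq_le_of_symm (BB N) BB_pos ⟨BB_symm⟩ F (Kop i r r F)
  have h4 : 0 ≤ BB N F (Kop i r r F) := h1 ▸ BB_pos _
  have h5 : 0 ≤ ip r.1 r.1 := integral_nonneg fun x => mul_self_nonneg _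
  have h6 := BB_pos F
  rw [h1]
  rw [h2] at h3
  refine le_trans ?_ (mul_le_mul_of_nonneg_right hr h6)
  rcases h4.eq_or_lt with h7 | h7
  · rw [← h7]; positivity
  · refine le_of_mul_le_mul_right ?_ h7
    nlinarith

end

end Vale.Agent.P370Z.MBLOW
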